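import Vale.Agent.P352L.R.TP1.CloC
import Vale.Agent.P352L.R.TW0
import Vale.Agent.P352L.Api1C

/-!
# P352L, row TP1: products that are compatible with closed sources
-/

set_option linter.all false

noncomputable section

open Filter Topology Set Metric
open scoped SchwartzMap ContDiff LineDeriv

namespace Vale.Agent.P352L

open Vale.Agent.P352 Vale.Agent.P352X Vale.Agent.P352.GF Vale.Agent.P352.BW
open UniformSpace (Completion)
open Str Part StrL

variable {D : Type*} [NormedAddCommGroup D] [InnerProductSpace ℂ D] {c : Ctx D}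

namespace Clf

variable {e : Bool} {w wp wm : ℝ → ℝ → I2 → I2 → S2 →L[ℂ] Completion D} {χ : V → ℂ}
  {φ : Completion D →L[ℂ] ℂ}

lemma ex_cut {r : ℝ} (hr : 0 < r) : ∃ χ : V → ℝ, Dc (cx χ) ∧ (∀ᶠ u in 𝓝 0, cx χ u = 1) ∧
    tsupport (cx χ) ⊆ closedBall 0 r := by
  let b : ContDiffBump (0 : V) := ⟨r / 2, r, half_pos hr, half_lt_self hr⟩
  refine ⟨b, Api4.dc_cx ⟨b.contDiff, b.hasCompactSupport⟩, b.eventuallyEq_one.mono fun u hu => by
    rw [cx, hu]
    rfl, closure_minimal (fun u hu => ball_subset_closedBall ?_) isClosed_closedBall⟩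
  rw [← b.support_eq]
  simpa [cx] using hu

/-- the members agree on functionals that kill the families of low dimension -/
theorem mem_eq (p : PART c) (P : Ns c.Q φ) (β β' : ℝ) (m n : Ix) {f : Fn} (hf : IsTest f) :
    φ (c.TT β m n f c.Q.vac : D) = φ (c.TT β' m n f c.Q.vac : D) := by
  have l : ∀ τ g, IsTest g → φ (c.LL τ g) = 0 := fun τ g ⟨g', hg⟩ => hg ▸
    P 0 2 c.n0 (fun τ _ => Two.LP c.hLL τ) ⟨fun τ μ s L a f g hs hL e => ⟨0, by
      rw [Finset.univ_unique, Finset.sum_singleton, ← Ug_apply c.Q hs hL, Two.LP_apply,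
        Two.LP_apply, show ev g = fun x => ev f (sim s L a x) from funext e,
        Grp.pot c.hN.toRep c.hLL τ a hs hL ⟨f, rfl⟩, ← Complex.coe_smul, smul_smul]
      norm_num [hs.ne']⟩, fun μ f => (c.hLL.pol _ ⟨f, rfl⟩).congr fun τ => by
        rw [Two.LP_apply, Grp.perpl c.hLL τ ⟨f, rfl⟩, zero_smul, sub_zero]⟩ (by norm_num)
      (by norm_num) τ default g'
  have t := Ap.test_hk (bas m (eta m)) (bas n (eta n)) hf
  have e : ∀ τ, ∑ a, ∑ b, c.TT τ a b (hk (bas m (eta m)) (bas n (eta n)) f a b) c.Q.vac =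
      c.TT τ m n f c.Q.vac := fun τ => by
    rw [Grp.T_hk (c.hF.st τ) _ _ hf]
    simp [bas, ite_smul, ← Complex.ofReal_mul, Part.eta_sq]
  have r : IsTest (RR (hk (bas m (eta m)) (bas n (eta n)) f)) := by
    choose g hg using t
    exact ⟨_, (ev_RR fun I => g I.1 I.2).trans (congrArg RR (funext₂ hg))⟩
  have k : ∀ β, φ (c.TT β m n f c.Q.vac : D) = φ (c.TT c.tau m n f c.Q.vac : D) := fun β => by
    have := congrArg φ (p (β - c.tau) _ t)
    rw [map_sub, map_sub, l _ _ r, l _ _ r, sub_zero, sub_eq_zero] at this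
    simpa only [Ctx.Tv, Ctx.Tf, e, add_sub_cancel] using this
  rw [k, k β']

theorem fix_clo (t : T3 c) (h : TP2 c.Q c.TT e w) (hχ : Dc χ) (h1 : ∀ᶠ u in 𝓝 (0 : V), χ u = 1) :
    c.Clo (fix χ w) := fun α β κ κ' κ'' f N hf => by
  have P : Ns c.Q (innerSL ℂ (c.Cv κ f)) := fun N d J O h1 h2 h3 τ μ g =>
    t.ns2 N d J O h1 h2 h3 _ τ μ g (test_hA hf κ) (RR_hA hf κ)
  have M := mem_eq t.part P
  obtain ⟨W, hW, -⟩ := t.wk
  obtain ⟨ε, hε⟩ := ex_bi c.hF.st h hW
  choose u hu e using hε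
  have ch : ∀ α, CHr c.Q (c.TT α) c.A := fun α => (t.all.fx α).ch
  refine wcc_eq c.hF.st (fix_tp c.hF.st h hχ h1) hχ h1 P (fun β β' κ g v => ?_)
    (fix_dv h hχ h1 (dv0_eq c.hF.st h hχ h1 P (fun α β α' β' n J g hg => ?_)
      fun α β α' β' n r J g hg => ?_)) α β κ' κ'' N
  · have k : ∀ β, ∑ J : I2, c.TT β J.1 J.2 (ev (aD i0 κ J g)) v = c.Tf (hA κ (ev g)) v :=
      fun β => by
        rw [← t.wx (β - c.tau) _ v (test_hA ⟨g, rfl⟩ κ) (RR_hA ⟨g, rfl⟩ κ)]
        simp only [ev_aD, Fintype.sum_prod_type, Ctx.Tf, Ctx.T, add_sub_cancel]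
    rw [k, k]
  · simp only [e, fun α β => ward_tr (hu α β) (c.hF.st α) (c.hF.st β) c.hN.toRep (ch α) hχ h1 n J hg,
      map_smul]
    rw [M β β' _ _ (H746.isTest_vf (r := 0) ⟨bas n 1, 0, by simp, by simp⟩ ⟨g, rfl⟩)]
  · simp only [e, ← smul_sub, fun α β => (hu α β).ward1 (c.hF.st α) (c.hF.st β) c.hN.toRep (ch α)
      hχ h1 n r J hg, map_smul, spin, Completion.coe_add, coe_sum, Completion.coe_smul, map_add,
      map_sum, M β β' _ _ ⟨g, rfl⟩]

theorem fix_cmp (hp : TP2 c.Q c.TT true wp) (hm : TP2 c.Q c.TT false wm) (hχ : Dc χ)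
    (h1 : ∀ᶠ u in 𝓝 (0 : V), χ u = 1) (h : c.Cmp wp wm) : c.Cmp (fix χ wp) (fix χ wm) :=
    fun α x y hxy => by
  obtain ⟨d, d0, hd⟩ := h α x y hxy
  refine ⟨d / 2, half_pos d0, fun I J K f G G' hf hG hG' => ?_⟩
  have s := fun {E : Type} [PseudoMetricSpace E] (z : E) =>
    ball_subset_ball (x := z) (half_le_self d0.le)
  obtain ⟨ψ, hψ, p1, p2⟩ := ex_cut (half_pos d0)
  have o : ∀ {e w}, TP2 c.Q c.TT e w → ∀ n M (γ : Fin 1 → Ix) g,
      dvL (w α α) n M (Mo χ γ g) = dvL (w α α) n M (Mo (cx ψ) γ g) := fun h n M γ g =>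
    (StrL.off c.hF.st h α α n M).congr fun x => by
      filter_upwards [near h1 continuous_id rfl x, near p1 continuous_id rfl x] with z a1 a2
      rw [Mo_apply hχ, Mo_apply hψ, show χ (z.1 - z.2) = 1 from a1, show cx ψ (z.1 - z.2) = 1 from a2]
  have g1 : tsupport (dgn G) ⊆ ball y (d / 2) := fun z hz => by
    have : (z, z) ∈ tsupport G := by
      by_contra q
      exact notMem_tsupport_iff_eventuallyEq.2 (((continuous_id.prodMk continuous_id).tendsto z
        |>.eventually (notMem_tsupport_iff_eventuallyEq.1 q)).mono fun u hu =>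
          (dgn_apply G u).trans hu) hz
    have := hG this
    rw [← ball_prod_same] at this
    exact this.1
  have j : ∀ n M (γ : Fin 1 → Ix), inner ℂ ((c.TT α I.1 I.2 (bar (ev f)) c.Q.vac : D) : Completion D)
      (dvL (wp α α) n M (Mo χ γ (dgn G))) = inner ℂ (dvL (wm α α) n M (Mo χ γ (dgn G')))
        ((c.TT α I.1 I.2 (ev f) c.Q.vac : D) : Completion D) := fun n M γ => by
    rw [o hp, o hm, dvL_eq, dvL_eq, inner_sum, sum_inner]
    refine Finset.sum_congr rfl fun m _ => hd I _ M f _ _ (hf.trans (s x))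
      ((tsupport_dD _ _).trans fun z hz => ?_) (dD_star (fun z => ?_) _)
    · obtain ⟨a1, a2⟩ := Api4.tsupport_tenE _ _ _ hz
      rw [Api4.tsupport_sch (Api4.dc_mul_left (smooth_mon γ) hψ)] at a1
      have b1 := mem_closedBall_zero_iff.1 (p2 (tsupport_mul_subset_right a1))
      have b2 := mem_ball.1 (g1 a2)
      rw [← ball_prod_same]
      refine ⟨mem_ball.2 ((dist_triangle z.1 z.2 y).trans_lt ?_), s y (g1 a2)⟩
      rw [dist_eq_norm]
      exact (add_lt_add_of_le_of_lt b1 b2).trans_eq (add_halves d)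
    · simp [Mo_apply hψ, dgn_apply, hG', mon, cx]
  simp only [fix_apply, rho_apply, inner_sub_right, inner_sub_left, inner_smul_right,
    inner_smul_left, inner_add_right, inner_add_left, j,
    hd I J K f G G' (hf.trans (s x)) (hG.trans (s _)) hG', map_inv₀, map_ofNat]

end Clf

/-- **the products can be corrected** -/
theorem clo_fix (c : Ctx D) {wp wm : ℝ → ℝ → I2 → I2 → S2 →L[ℂ] Completion D} (t : T3 c)
    (hp : TP2 c.Q c.TT true wp) (hm : TP2 c.Q c.TT false wm) (h : c.Cmp wp wm) : TP1 c := by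
  obtain ⟨χ, hχ, h1, -⟩ := Clf.ex_cut one_pos
  exact ⟨_, _, Clf.fix_tp c.hF.st hp hχ h1, Clf.fix_tp c.hF.st hm hχ h1, Clf.fix_cmp hp hm hχ h1 h,
    Clf.fix_clo t hp hχ h1, Clf.fix_clo t hm hχ h1⟩

end Vale.Agent.P352L
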