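import Vale.Agent.P352L.PartD
import Vale.Agent.P352L.Slot
import Vale.Agent.P352L.R.STRUCT

/-!
# P352L, row TP1: jets on the diagonal (no context)
-/

set_option linter.all false

noncomputable section

open Filter Topology Set
open scoped SchwartzMap ContDiff LineDeriv

namespace Vale.Agent.P352L.Clf

open Vale.Agent.P352 Vale.Agent.P352X Vale.Agent.P352.GF Vale.Agent.P352.BW
open UniformSpace (Completion)
open Str Part
open Matrix (vecCons)

/-- restriction to the diagonal -/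
def dgn : S2 →L[ℂ] Sch :=
  Api4.sl 0 ∘L SchwartzMap.compCLMOfContinuousLinearEquiv ℂ (Api4.sh2 V).symm

lemma dgn_apply (G : S2) (z : V) : dgn G z = G (z, z) := by
  show G (0 + z, z) = _
  rw [zero_add]

/-- multiplication by the coordinates of the difference -/
def mul (s : Ix) : S2 →L[ℂ] S2 := SchwartzMap.smulLeftCLM ℂ fun z => (lc s z : ℂ)

lemma mul_apply (s : Ix) (G : S2) (z : V × V) : mul s G z = (z.1 - z.2) s * G z :=
  SchwartzMap.smulLeftCLM_apply_apply (Api4.temperate_clm (lc s)) G z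

lemma dD_mul (v : V × V) (s : Ix) (G : S2) :
    dD v (mul s G) = ((v.1 - v.2) s : ℂ) • G + mul s (dD v G) := by
  ext z
  have d := ((Complex.ofRealCLM ∘L lc s).hasFDerivAt (x := z)).mul (G.hasFDerivAt z)
  rw [dD_eq, show ⇑(mul s G) = ⇑(Complex.ofRealCLM ∘L lc s) * ⇑G from funext (mul_apply s G),
    d.fderiv]
  simp [mul_apply, dD_eq, lc_apply]
  ring

lemma p1_mul (m s : Ix) (G : S2) :
    pD i1 m (mul s G) = (bas s 1 m : ℂ) • G + mul s (pD i1 m G) := by
  rw [pD, dD_mul]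
  simp [i1, bas, eq_comm]

lemma p2_mul (m s : Ix) (G : S2) :
    pD i2 m (mul s G) = -((bas s 1 m : ℂ) • G) + mul s (pD i2 m G) := by
  rw [pD, dD_mul]
  simp [i2, bas, eq_comm]

lemma dgn_mul (s : Ix) (G : S2) : dgn (mul s G) = 0 := by
  ext z
  simp [dgn_apply, mul_apply]

lemma dgn_sw (G : S2) : dgn (sw G) = dgn G := by
  ext z
  rw [dgn_apply, dgn_apply, sw_apply]

lemma sum_bas {M : Type*} [AddCommGroup M] [Module ℂ M] (a : Ix) (u : Ix → M) :
    ∑ ρ, (bas a 1 ρ : ℂ) • u ρ = u a := by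
  rw [Finset.sum_eq_single a (fun b _ hb => by simp [bas, hb]) (by simp)]
  simp [bas]

/-- functions that vanish near the diagonal -/
def Nd (F : S2) : Prop := ∀ x, (x, x) ∉ tsupport F

lemma Nd.mul {F : S2} (h : Nd F) (s : Ix) : Nd (mul s F) := fun x hx => h x (by
  rw [show ⇑(Clf.mul s F) = _ from funext (mul_apply s F)] at hx
  exact tsupport_mul_subset_right hx)

lemma Nd.dD {F : S2} (h : Nd F) (v : V × V) : Nd (dD v F) := fun x hx => h x (tsupport_dD v F hx)

lemma Nd.dgn {F : S2} (h : Nd F) : dgn F = 0 := by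
  ext z
  rw [dgn_apply, image_eq_zero_of_notMem_tsupport (h z)]
  rfl

variable {χ : V → ℂ}

lemma Mo_cons (hχ : Dc χ) {k : ℕ} (s : Ix) (γ : Fin k → Ix) (g : Sch) :
    Mo χ (vecCons s γ) g = mul s (Mo χ γ g) := by
  ext z
  rw [mul_apply, Mo_apply hχ, Mo_apply hχ, mon_cons]
  ring

lemma dgn_Mo (hχ : Dc χ) (h1 : ∀ᶠ u in 𝓝 (0 : V), χ u = 1) (g : Sch) : dgn (Mo χ ![] g) = g := by
  ext z
  simp [dgn_apply, Mo_apply hχ, mon, h1.self_of_nhds]

lemma nd_Mo (hχ : Dc χ) (h1 : ∀ᶠ u in 𝓝 (0 : V), χ u = 1) (m : Ix) (g : Sch) :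
    Nd (pD i1 m (Mo χ ![] g)) := fun x => by
  have e : (Mo χ ![] g : V × V → ℂ) =ᶠ[𝓝 (x, x)] fun z => g z.2 :=
    (near h1 continuous_id rfl x).mono fun z hz => by
      rw [Mo_apply hχ, show χ (z.1 - z.2) = 1 from hz]
      simp [mon]
  refine notMem_tsupport_iff_eventuallyEq.2 ((d_near e (i1 (bas m 1))).mono fun z hz => hz.trans ?_)
  have d := (g.hasFDerivAt z.2).comp z (hasFDerivAt_snd (𝕜 := ℝ))
  refine (congrArg (fun u => u (i1 (bas m 1))) d.fderiv).trans ?_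
  simp [i1]

variable {B : Type*} [NormedAddCommGroup B] [NormedSpace ℂ B]

/-- distributions on the diagonal are determined by their jets -/
theorem off_zero [CompleteSpace B] {Λ : S2 →L[ℂ] B} (h : Off Λ) (hχ : Dc χ)
    (h1 : ∀ᶠ u in 𝓝 (0 : V), χ u = 1) (hj : ∀ k (γ : Fin k → Ix) (g : Sch),
      HasCompactSupport g → Λ (Mo χ γ g) = 0) (F : S2) : Λ F = 0 := by
  refine ST.vanish_of_compact Λ F fun u hu _ => ?_
  obtain ⟨C, N, hC, hb⟩ := ST.clm_sn_c Λ
  rw [h.expand hC hb hχ h1 hu]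
  refine Finset.sum_eq_zero fun k _ => Finset.sum_eq_zero fun γ _ => ?_
  rw [show Api4.ten2 _ _ = Mo χ γ (dg γ u) from rfl, hj k γ _ (HasCompactSupport.intro
    (hu.image continuous_snd) fun x hx => by
      rw [dg_apply γ hu]
      exact pdA_zero γ u fun a => hx ⟨_, a, rfl⟩), smul_zero]

lemma braid {t : Ix → Ix → Ix → ℂ} (h1 : ∀ m n q, t m n q = t n m q)
    (h2 : ∀ p q n, t p n q + t q n p = 0) (m n q : Ix) : t m n q = 0 := by
  linear_combination (h2 m q n - h1 q n m - h2 n m q + h1 m q n + h2 q n m - h1 n m q) / 2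

/-- symmetric tensors without divergence and without higher jets vanish -/
theorem sym_zero {Λ : I2 → S2 →L[ℂ] ℂ} (h : ∀ I, Off (Λ I)) (hχ : Dc χ)
    (h1 : ∀ᶠ u in 𝓝 (0 : V), χ u = 1) (hs : ∀ m n, Λ (m, n) = Λ (n, m))
    (hd : ∀ n G, ∑ m, Λ (m, n) (pD i1 m G) = 0)
    (hj : ∀ I k (γ : Fin (k + 2) → Ix) (g : Sch), Λ I (Mo χ γ g) = 0) (I : I2) (F : S2) :
    Λ I F = 0 := by
  refine off_zero (h I) hχ h1 (fun k γ g _ => ?_) F
  have z := fun J m => h J _ (nd_Mo hχ h1 m g)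
  have n1 := fun m s => (nd_Mo hχ h1 m g).mul s
  rcases k with _ | _ | k
  · have := hd I.2 (mul I.1 (Mo χ ![] g))
    simp only [p1_mul, map_add, map_smul, h _ _ (n1 _ _), add_zero] at this
    rw [sum_bas I.1 fun m => Λ (m, I.2) _] at this
    rwa [Subsingleton.elim γ ![]]
  · rw [show γ = vecCons (γ 0) ![] from funext fun i => by fin_cases i; rfl, Mo_cons hχ]
    refine braid (t := fun m n q => Λ (m, n) (mul q (Mo χ ![] g))) (fun m n q => by rw [hs])
      (fun p q n => ?_) I.1 I.2 _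
    have := hd n (mul p (mul q (Mo χ ![] g)))
    simp only [p1_mul, map_add, map_smul, h _ _ ((n1 _ _).mul _), add_zero,
      Finset.sum_add_distrib] at this
    rwa [sum_bas p fun m => Λ (m, n) _, sum_bas q fun m => Λ (m, n) _] at this
  · exact hj I k γ g

/-! ## covariance -/

variable {D : Type*} [NormedAddCommGroup D] [InnerProductSpace ℂ D] {Q : Theory D}
  {s : ℝ} {L : Ix → V}

/-- covariant families of distributions of two points that live on the diagonal -/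
structure Cv2 (Q : Theory D) (r : ℕ) (p : ℝ) (J : ℕ)
    (Λ : ℝ → (Fin r → Ix) → S2 →L[ℂ] Completion D) : Prop where
  off : ∀ τ μ, Off (Λ τ μ)
  cov : ∀ τ μ s L a (hs : 0 < s) (hL : IsLor L) F, ∃ κ : ℂ, Λ (τ + Real.log s) μ F =
    ∑ ν : Fin r → Ix, ((s ^ p * ∏ i, L (ν i) (μ i) : ℝ) : ℂ) •
      Ug Q s L a (Λ τ ν (sim2 hs hL a F)) + κ • om Q
  pol : ∀ μ F, IsPol J fun τ => StrL.pp Q (Λ τ μ F)

lemma off_sim {Λ : S2 →L[ℂ] B} (h : Off Λ) (hχ : Dc χ) (h1 : ∀ᶠ u in 𝓝 (0 : V), χ u = 1)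
    (hs : 0 < s) (hL : IsLor L) (a : V) {k : ℕ} (γ : Fin k → Ix) {f g : Sch}
    (hg : ∀ x, g x = f (sim s L a x)) : Λ (sim2 hs hL a (Mo χ γ f)) =
      ∑ ν, ((s ^ k * ∏ i, L (ν i) (γ i) : ℝ) : ℂ) • Λ (Mo χ ν g) := by
  simp only [← map_smul, ← map_sum]
  refine h.congr fun x => ?_
  filter_upwards [near h1 continuous_id rfl x, near h1 (sl hs hL).continuous (map_zero _) x]
    with ⟨y, z⟩ a1 a2
  have : sim s L a y - sim s L a z = sim s L 0 (y - z) := by
    rw [← sl_apply hs hL, map_sub, sl_apply, sl_apply, HM.sim_at s L a, HM.sim_at s L a z]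
    abel
  rw [sl_apply] at a2
  simp only [sim2_apply, SchwartzMap.sum_apply, SchwartzMap.smul_apply, Mo_apply hχ, this, a2,
    show χ (y - z) = 1 from a1, hg, mon_sim, mul_one, Finset.sum_mul, smul_eq_mul]
  exact Finset.sum_congr rfl fun ν _ => by ring

theorem Cv2.jet {r J : ℕ} {p : ℝ} {Λ : ℝ → (Fin r → Ix) → S2 →L[ℂ] Completion D}
    (h : Cv2 Q r p J Λ) (hχ : Dc χ) (h1 : ∀ᶠ u in 𝓝 (0 : V), χ u = 1) (k : ℕ) {d : ℝ}
    (hd : 4 - d = p + k) : CovL Q (r + k) d J fun τ μ =>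
      Λ τ (fun i => μ (Fin.castAdd k i)) ∘L Mo χ fun i => μ (Fin.natAdd r i) := by
  refine ⟨fun τ μ s L a f g hs hL hg => ?_, fun μ f => h.pol _ _⟩
  refine (h.cov τ _ s L a hs hL (Mo χ _ f)).imp fun κ hκ => hκ.trans ?_
  simp only [off_sim (h.off _ _) hχ h1 hs hL a _ hg, map_sum, map_smul, Finset.smul_sum, smul_smul,
    ← Ug_apply Q hs hL, add_left_inj]
  rw [← (Fin.appendEquiv r k).sum_comp, Fintype.sum_prod_type]
  refine Finset.sum_congr rfl fun ν _ => Finset.sum_congr rfl fun γ _ => ?_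
  simp only [Fin.appendEquiv_apply, Fin.append_left, Fin.append_right, Fin.prod_univ_add, hd,
    Real.rpow_add hs, Real.rpow_natCast, ContinuousLinearMap.comp_apply]
  congr 1
  push_cast
  ring

lemma lor_col (hL : IsLor L) (r t : Ix) : ∑ m, eta m * (L m r * L m t) = gm (r, t) := by
  simpa only [sim_bas, one_mul, one_pow] using conf_col (conf_sim one_pos hL) r t

lemma lor_row (hL : IsLor L) (r t : Ix) : ∑ m, eta m * (L r m * L t m) = gm (r, t) := by
  simpa only [GF.mdot, mul_assoc, gm] using hL.1 r t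

lemma sum_gm (u : Ix → Ix → ℝ) : ∑ m, ∑ n, u m n * gm (m, n) = ∑ m, eta m * u m m := by
  simp [gm, bas, mul_comm]

lemma sS_cov (hL : IsLor L) (m n : Ix) (M : I2) : ∑ a, ∑ b, L a m * L b n * sS a b M =
    ∑ J : I2, L M.1 J.1 * L M.2 J.2 * sS m n J := by
  have a1 := (sum_gm fun a b => L a m * L b n).trans (lor_col hL m n)
  have a2 := (sum_gm fun a b => L M.1 a * L M.2 b).trans (lor_row hL M.1 M.2)
  have b : ∀ (u v : Ix → ℝ) (r t : Ix), ∑ a, ∑ b, u a * v b * (bas a 1 r * bas b 1 t) = u r * v t :=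
    fun u v r t => by simp [bas]
  have b' : ∀ (u v : Ix → ℝ) (r t : Ix), ∑ a, ∑ b, u a * v b * (bas r 1 a * bas t 1 b) = u r * v t :=
    fun u v r t => by simp [bas]
  have c1 : ∀ a b, L a m * L b n * sS a b M = L a m * L b n * (bas a 1 M.1 * bas b 1 M.2) / 2 +
      L a m * L b n * (bas a 1 M.2 * bas b 1 M.1) / 2 - L a m * L b n * gm (a, b) * (gm M / 3) :=
    fun a b => by rw [sS]; ring
  have c2 : ∀ a b, L M.1 a * L M.2 b * sS m n (a, b) =
      L M.1 a * L M.2 b * (bas m 1 a * bas n 1 b) / 2 +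
      L M.1 a * L M.2 b * (bas n 1 a * bas m 1 b) / 2 -
      L M.1 a * L M.2 b * gm (a, b) * (gm (m, n) / 3) := fun a b => by rw [sS]; ring
  simp only [Fintype.sum_prod_type, c1, c2, Finset.sum_sub_distrib, Finset.sum_add_distrib,
    ← Finset.sum_div, ← Finset.sum_mul, a1, a2, b (fun a => L a m) fun a => L a n, b']
  ring

lemma up_cov (hs : 0 < s) (hL : IsLor L) (a : V) (k : Ix) (F : S2) :
    ∑ j, ((L j k * eta j : ℝ) : ℂ) • pD i2 j (sim2 hs hL a F) =
      ((s * eta k : ℝ) : ℂ) • sim2 hs hL a (pD i2 k F) := by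
  have e : ∀ j, pD i2 j (sim2 hs hL a F) =
      ∑ m, ((s * L j m : ℝ) : ℂ) • sim2 hs hL a (pD i2 m F) := fun j => by
    refine (dD_cp (c2 (sl hs hL)) (a, a) _ F).trans ?_
    rw [c2_i2, dD_slot]
    simp only [sl_apply, sim_bas, ContinuousLinearMap.sum_apply, ContinuousLinearMap.smul_apply,
      map_sum, map_smul]
    rfl
  simp only [e, Finset.smul_sum, smul_smul]
  rw [Finset.sum_comm, ← sum_bas k fun m => ((s * eta k : ℝ) : ℂ) • sim2 hs hL a (pD i2 m F)]
  refine Finset.sum_congr rfl fun m _ => ?_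
  rw [← Finset.sum_smul, smul_smul]
  congr 1
  rw [← Complex.ofReal_mul, show bas k 1 m * (s * eta k) = s * gm (k, m) by
    by_cases q : m = k <;> simp [gm, bas, q], ← lor_col hL, Finset.mul_sum, Complex.ofReal_sum]
  exact Finset.sum_congr rfl fun j _ => by push_cast; ring

/-- the transformation law of `aD` -/
theorem aD_cov (hs : 0 < s) (hL : IsLor L) (a : V) (κ : I3) (M : I2) (F : S2) :
    ∑ J, L2 L M J • sim2 hs hL a (aD i2 κ J F) = ∑ k, ∑ m, ∑ n,
      ((s⁻¹ * (L k κ.1 * L m κ.2.1 * L n κ.2.2) : ℝ) : ℂ) • aD i2 (k, m, n) M (sim2 hs hL a F) := by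
  have s0 : (s : ℂ) ≠ 0 := Complex.ofReal_ne_zero.2 hs.ne'
  have key : ∀ p q r : Ix, ∑ J, L2 L M J • ((eta p * sS q r J : ℝ) : ℂ) •
      sim2 hs hL a (pD i2 p F) = ∑ k, ∑ m, ∑ n, ((s⁻¹ * (L k p * L m q * L n r) : ℝ) : ℂ) •
        ((eta k * sS m n M : ℝ) : ℂ) • pD i2 k (sim2 hs hL a F) := fun p q r => by
    calc _ = ((s⁻¹ * ∑ m, ∑ n, L m q * L n r * sS m n M : ℝ) : ℂ) •
          ((s * eta p : ℝ) : ℂ) • sim2 hs hL a (pD i2 p F) := by
          simp only [smul_smul, ← Finset.sum_smul, sS_cov hL, L2]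
          congr 1
          push_cast
          rw [Finset.mul_sum, Finset.sum_mul]
          exact Finset.sum_congr rfl fun J _ => by field_simp
      _ = _ := by
          rw [← up_cov hs hL, Finset.smul_sum]
          refine Finset.sum_congr rfl fun k _ => ?_
          simp only [smul_smul, ← Finset.sum_smul]
          congr 1
          push_cast
          simp only [Finset.mul_sum, Finset.sum_mul]
          exact Finset.sum_congr rfl fun m _ => Finset.sum_congr rfl fun n _ => by ring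
  simp only [aD, ContinuousLinearMap.sub_apply, ContinuousLinearMap.smul_apply, map_sub, map_smul,
    smul_sub, Finset.sum_sub_distrib, key]
  congr 1
  rw [Finset.sum_comm]
  simp only [mul_comm (L _ κ.2.1) (L _ κ.1)]

end Vale.Agent.P352L.Clf
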