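import Vale.Agent.P352L.R.TP1.CloA

/-!
# P352L, row TP1: the corrected products
-/

set_option linter.all false

noncomputable section

open Filter Topology Set
open scoped SchwartzMap ContDiff LineDeriv

namespace Vale.Agent.P352L.Clf

open Vale.Agent.P352 Vale.Agent.P352X Vale.Agent.P352.GF Vale.Agent.P352.BW
open UniformSpace (Completion)
open Str Part StrL
open Matrix (vecCons)
open Complex (I)

variable {D : Type*} [NormedAddCommGroup D] [InnerProductSpace ℂ D] {Q : Theory D}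
  {T : ℝ → Ix → Ix → Fld D} {e : Bool} {w : ℝ → ℝ → I2 → I2 → S2 →L[ℂ] Completion D}
  {χ : V → ℂ} {s : ℝ} {L : Ix → V} {φ : Completion D →L[ℂ] ℂ} {A : (V → V) → D → D}

lemma dvL_eq (u : I2 → I2 → S2 →L[ℂ] Completion D) (n : Ix) (J : I2) (G : S2) :
    dvL u n J G = ∑ m, u (m, n) J (pD i1 m G) := dvL_apply n J G

lemma tp_sw (h : TP2 Q T e w) (α β : ℝ) (K M : I2) (F : S2) :
    w α β K M F = w β α M K (sw F) := h.swap α β K M F _ fun _ _ => rfl

lemma itw_sw1 : Itw i1 i2 sw := fun v F => (sw_d 0 v F).symm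
lemma itw_sw2 : Itw i2 i1 sw := fun v F => (sw_d v 0 F).symm

/-- the symmetric part of the first jet of the divergence -/
def rho (χ : V → ℂ) (u : I2 → I2 → S2 →L[ℂ] Completion D) (I J : I2) : Sch →L[ℂ] Completion D :=
  (2⁻¹ : ℂ) • (dvL u I.1 J ∘L Mo χ ![I.2] + dvL u I.2 J ∘L Mo χ ![I.1])

lemma rho_apply (u : I2 → I2 → S2 →L[ℂ] Completion D) (I J : I2) (f : Sch) : rho χ u I J f =
    (2⁻¹ : ℂ) • (dvL u I.1 J (Mo χ ![I.2] f) + dvL u I.2 J (Mo χ ![I.1] f)) := rfl

lemma rho_s1 (u : I2 → I2 → S2 →L[ℂ] Completion D) (I J : I2) :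
    rho χ u I.swap J = rho χ u I J := by rw [rho, rho, add_comm]; rfl

lemma rho_s2 (h : TP2 Q T e w) (α β : ℝ) (I J : I2) :
    rho χ (w α β) I J.swap = rho χ (w α β) I J := by simp only [rho, dvL, StrL.ind2 h]

/-- the corrected products -/
def fix (χ : V → ℂ) (w : ℝ → ℝ → I2 → I2 → S2 →L[ℂ] Completion D) (α β : ℝ) (I J : I2) :
    S2 →L[ℂ] Completion D :=
  w α β I J - (2⁻¹ : ℂ) • (rho χ (w α β) I J + rho χ (w β α) J I) ∘L dgn

lemma fix_apply (α β : ℝ) (I J : I2) (F : S2) : fix χ w α β I J F = w α β I J F -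
    (2⁻¹ : ℂ) • (rho χ (w α β) I J (dgn F) + rho χ (w β α) J I (dgn F)) := rfl

theorem rho_cov (hT : ∀ τ, Stress0 Q (T τ)) (h : TP2 Q T e w) (hχ : Dc χ)
    (h1 : ∀ᶠ u in 𝓝 (0 : V), χ u = 1) (hs : 0 < s) (hL : IsLor L) (α β : ℝ) (a : V) (I J : I2)
    {f g : Sch} (hg : ∀ x, g x = f (sim s L a x)) : ∃ κ : ℂ,
    rho χ (w (α + Real.log s) (β + Real.log s)) I J f =
      ∑ K, ∑ M, (L2 L K I * L2 L M J) • Ug Q s L a (rho χ (w α β) K M g) + κ • om Q := by
  have s0 : (s : ℂ) ≠ 0 := Complex.ofReal_ne_zero.2 hs.ne'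
  have j : ∀ n t, ∃ κ : ℂ, dvL (w (α + Real.log s) (β + Real.log s)) n J (Mo χ ![t] f) =
      ∑ k, ∑ l, ∑ M, (L2 L (k, l) (n, t) * L2 L M J) •
        Ug Q s L a (dvL (w α β) k M (Mo χ ![l] g)) + κ • om Q := fun n t => by
    refine (dv_cov h hs hL α β a n J _).imp fun κ hκ => hκ.trans ?_
    simp only [off_sim (StrL.off hT h α β _ _) hχ h1 hs hL a _ hg, map_sum, map_smul,
      Finset.smul_sum, smul_smul, add_left_inj]
    refine Finset.sum_congr rfl fun k _ => Finset.sum_comm.trans ?_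
    rw [← (Equiv.funUnique (Fin 1) Ix).symm.sum_comp]
    refine Finset.sum_congr rfl fun l _ => Finset.sum_congr rfl fun M _ => ?_
    congr 1
    simp [L2]
    field_simp
  obtain ⟨κ1, e1⟩ := j I.1 I.2
  obtain ⟨κ2, e2⟩ := j I.2 I.1
  refine ⟨2⁻¹ * (κ1 + κ2), ?_⟩
  rw [Finset.sum_comm (s := Finset.univ (α := Ix))] at e2
  rw [rho_apply, e1, e2, add_add_add_comm, smul_add, ← add_smul, smul_smul, Fintype.sum_prod_type]
  simp only [rho_apply, map_smul, map_add, ← Finset.sum_add_distrib, Finset.smul_sum, smul_add,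
    add_left_inj, smul_comm (2⁻¹ : ℂ), L2, mul_comm (L _ I.2)]

theorem fix_tp (hT : ∀ τ, Stress0 Q (T τ)) (h : TP2 Q T e w) (hχ : Dc χ)
    (h1 : ∀ᶠ u in 𝓝 (0 : V), χ u = 1) : TP2 Q T e (fix χ w) where
  fac α β I J f g F hF hl := by
    have : dgn F = 0 := by
      ext z
      rw [dgn_apply, hF]
      by_contra q
      exact hl z (subset_tsupport _ (left_ne_zero_of_mul q)) z
        (subset_tsupport _ (right_ne_zero_of_mul q)) (by simp [GF.mdot])
    rw [fix_apply, this, map_zero, map_zero, add_zero, smul_zero, sub_zero,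
      h.fac α β I J f g F hF hl]
  swap α β I J F G hG := by
    obtain rfl : G = sw F := SchwartzMap.ext fun z => hG z.1 z.2
    rw [fix_apply, fix_apply, dgn_sw, add_comm, tp_sw h]
  ind α β I J := by rw [fix, fix, rho_s1, rho_s2 h, ← h.ind]
  cov α β s L a I J F G hs hL hG := by
    have hg : ∀ x, dgn G x = dgn F (sim s L a x) := fun x => by rw [dgn_apply, dgn_apply, hG]
    obtain ⟨κ0, e0⟩ := h.cov α β s L a I J F G hs hL hG
    obtain ⟨κ1, e1⟩ := rho_cov hT h hχ h1 hs hL α β a I J hg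
    obtain ⟨κ2, e2⟩ := rho_cov hT h hχ h1 hs hL β α a J I hg
    refine ⟨κ0 - 2⁻¹ * (κ1 + κ2), ?_⟩
    rw [Finset.sum_comm] at e2
    rw [fix_apply, e0, e1, e2]
    simp only [fix_apply, ← Ug_apply Q hs hL, map_sub, map_smul, map_add, smul_sub, smul_add,
      Finset.sum_sub_distrib, Finset.sum_add_distrib, mul_comm (L2 L _ J), smul_comm _ (2⁻¹ : ℂ),
      ← Finset.smul_sum]
    module
  pol := by
    obtain ⟨n, hn⟩ := h.pol
    have p1 : ∀ β I J F, IsPol n fun α => pp Q (w α β I J F) := hn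
    have p2 : ∀ β I J F, IsPol n fun α => pp Q (w β α I J F) := fun β I J F =>
      (p1 β J I (sw F)).congr fun α => by rw [tp_sw h]
    have q : ∀ u : ℝ → I2 → I2 → S2 →L[ℂ] Completion D,
        (∀ I J F, IsPol n fun α => pp Q (u α I J F)) →
        ∀ I J f, IsPol n fun α => pp Q (rho χ (u α) I J f) := fun u hu I J f =>
      (((IsPol.sum Finset.univ fun m _ => hu (m, I.1) J (pD i1 m (Mo χ ![I.2] f))).add
        (IsPol.sum Finset.univ fun m _ => hu (m, I.2) J (pD i1 m (Mo χ ![I.1] f)))).smul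
        (2⁻¹ : ℂ)).congr fun α => by simp only [rho_apply, dvL_eq, map_smul, map_add, map_sum]
    exact ⟨n, fun β I J F => ((p1 β I J F).sub (((q _ (p1 β) I J (dgn F)).add
      (q _ (p2 β) J I (dgn F))).smul (2⁻¹ : ℂ))).congr fun α => by
        rw [← pp_apply, fix_apply, map_sub, map_smul, map_add]⟩

/-! ## the Ward identities -/

theorem ward_tr {T T' : Ix → Ix → Fld D} {u : I2 → I2 → S2 →L[ℂ] Completion D} (h : Bi Q T T' u)
    (hT : Stress0 Q T) (hT' : Stress0 Q T') (R : H15.Rep Q A) (ch : CHr Q T A) (hχ : Dc χ)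
    (h1 : ∀ᶠ u in 𝓝 (0 : V), χ u = 1) (l : Ix) (J : I2) {f : Sch} (hf : HasCompactSupport f) :
    dvL u l J (Mo χ ![] f) = (-I * eta l) •
      ((T' J.1 J.2 (H746.vf (fun _ => bas l 1) (ev f)) Q.vac : D) : Completion D) := by
  obtain ⟨κ, hκ, k1, H⟩ := h.ward0 hT hT' R ch hf.isCompact
  have c0 : ∀ (z : V) n, bas l 1 n = bas l 1 n + 0 * z n + ∑ m, z m * (0 : Ix → V) m n :=
    fun z n => by simp
  have hC : H15.IsSim 0 fun _ => bas l 1 := ⟨bas l 1, 0, by simp, c0⟩
  have a := H _ hC J f subset_rfl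
  have e : ∀ n, dvL u n J (ST.tens (sch fun x => ((κ x * (eta n * bas l 1 n) : ℝ) : ℂ)) f) =
      (bas l 1 n : ℂ) • (eta l : ℂ) • dvL u n J (Mo χ ![] f) := fun n => by
    rw [← map_smul, ← map_smul]
    refine (h.off hT hT' n J).congr fun x => ?_
    have k : ∀ᶠ z : V × V in 𝓝 (x, x), κ z.1 * f z.2 = f z.2 := by
      by_cases hx : x ∈ tsupport f
      · exact ((continuous_fst.tendsto (x, x)).eventually (k1 x hx)).mono fun z hz => by simp [hz]
      · exact ((continuous_snd.tendsto (x, x)).eventually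
          (notMem_tsupport_iff_eventuallyEq.1 hx)).mono fun z hz => by simp [hz]
    filter_upwards [near h1 continuous_id rfl x, k] with z a1 a2
    simp only [SchwartzMap.smul_apply, ST.tens_apply, Mo_apply hχ,
      Ap.sch_apply (Ap.tst_sw (Chx.tst_uX hC hκ n)), show χ (z.1 - z.2) = 1 from a1]
    by_cases q : n = l
    · simp only [mon, bas, q, if_true, smul_eq_mul, Finset.univ_eq_empty, Finset.prod_empty]
      push_cast
      linear_combination (eta l : ℂ) * a2
    · simp [bas, q]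
  simp only [e] at a
  rw [sum_bas l fun n => (eta l : ℂ) • dvL u n J _, A_T R hT' (w := 0) (by simp) c0 ⟨f, rfl⟩,
    H746.A_vac R hC, fld_zero (fld0 hT' _ _) ⟨f, rfl⟩] at a
  simp only [Pi.zero_apply, Complex.ofReal_zero, zero_smul, Finset.sum_const_zero, zero_add,
    Completion.coe_smul] at a
  have q : (eta l : ℂ) * eta l = 1 := by exact_mod_cast Part.eta_sq l
  rw [mul_comm, mul_smul, neg_smul, ← a, smul_smul, q, one_smul]

/-- anti-time ordered products reduce to time ordered products -/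
theorem ex_bi (hT : ∀ τ, Stress0 Q (T τ)) (h : TP2 Q T e w)
    {W : ℝ → ℝ → I2 → I2 → S2 →L[ℂ] Completion D}
    (hW : ∀ α β K M (f g : Sch) (F : S2), (∀ x y, F (x, y) = f x * g y) → W α β K M F =
      ((T α K.1 K.2 (ev f) (T β M.1 M.2 (ev g) Q.vac) : D) : Completion D)) :
    ∃ ε : ℂ, ∀ α β, ∃ u, Bi Q (T α) (T β) u ∧ ∀ n J F, dvL (w α β) n J F = ε • dvL u n J F := by
  have f2 := fun α β K M (f g : Sch) (F : S2) (e : ∀ x y, F (x, y) = f x * g y) l =>
    (tp_sw h α β K M F).trans (h.fac β α M K g f _ (fun x y => (e y x).trans (mul_comm _ _)) l)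
  cases e
  swap
  · exact ⟨1, fun α β => ⟨_, ⟨h.fac α β, f2 α β, h.ind α β, fun K M => (StrL.ind2 h α β K M).symm⟩,
      fun _ _ _ => (one_smul _ _).symm⟩⟩
  have t1 := fun α β K M f g => hW α β K M f g (ST.tens f g) fun _ _ => rfl
  have t2 := fun α β K M (f g : Sch) (F : S2) (e : ∀ x y, F (x, y) = f x * g y) =>
    hW α β K M g f (sw F) fun x y => (e y x).trans (mul_comm _ _)
  have s1 : ∀ α β K M, W α β K.swap M = W α β K M := fun α β K M => ST.ext2 fun f g _ _ => by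
    rw [t1, t1, (hT α).symm K.1 K.2 _ _ ⟨f, rfl⟩]
    rfl
  have s2 : ∀ α β K M, W α β K M.swap = W α β K M := fun α β K M => ST.ext2 fun f g _ _ => by
    rw [t1, t1, (hT β).symm M.1 M.2 _ _ ⟨g, rfl⟩]
    rfl
  refine ⟨-1, fun α β => ⟨fun K M => W α β K M + W β α M K ∘L sw - w α β K M,
    ⟨fun K M f g F e l => ?_, fun K M f g F e l => ?_, fun K M => by rw [s1, s2, ← h.ind],
      fun K M => by rw [s1, s2, StrL.ind2 h]⟩, fun n J F => ?_⟩⟩
  · show W α β K M F + W β α M K (sw F) - w α β K M F = _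
    rw [hW α β K M f g F e, t2 β α M K f g F e, h.fac α β K M f g F e l]
    simp
  · show W α β K M F + W β α M K (sw F) - w α β K M F = _
    rw [hW α β K M f g F e, t2 β α M K f g F e, f2 α β K M f g F e l]
    simp
  have c1 : ∀ (f : Sch) (v : D), ∑ m, T α m n (ev (∂_{(bas m 1 : V)} f)) v = 0 := fun f v => by
    simpa only [Grp.pd_ev] using (hT α).conserved n (ev f) v ⟨f, rfl⟩
  have z : dvL (fun K M => W α β K M + W β α M K ∘L sw) n J = 0 := ST.ext2 fun f g _ _ => by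
    rw [dvL_apply, dv1]
    simp only [ContinuousLinearMap.add_apply, ContinuousLinearMap.comp_apply,
      fun m => hW α β (m, n) J _ g _ (d_tens m f g), fun m => t2 β α J (m, n) _ g _ (d_tens m f g),
      Finset.sum_add_distrib, ← coe_sum, ← fld_lin (fld0 (hT β) _ _) ⟨g, rfl⟩, c1,
      fld_zero (fld0 (hT β) _ _) ⟨g, rfl⟩, Completion.coe_zero, add_zero,
      ContinuousLinearMap.zero_apply]
  have z' := DFunLike.congr_fun z F
  simp only [dvL_eq, ContinuousLinearMap.sub_apply, Finset.sum_sub_distrib] at z' ⊢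
  rw [z']
  simp

end Vale.Agent.P352L.Clf
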