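import Vale.Agent.P352L.R.TP1.CloB

/-!
# P352L, row TP1: the corrected products are compatible with closed sources
-/

set_option linter.all false

noncomputable section

open Filter Topology Set
open scoped SchwartzMap ContDiff LineDeriv

namespace Vale.Agent.P352L.Clf

open Vale.Agent.P352 Vale.Agent.P352X Vale.Agent.P352.GF Vale.Agent.P352.BW
open UniformSpace (Completion)
open Str Part StrL
open Matrix (vecCons)
open Complex (I)

variable {D : Type*} [NormedAddCommGroup D] [InnerProductSpace ℂ D] {Q : Theory D}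
  {T : ℝ → Ix → Ix → Fld D} {e : Bool} {w : ℝ → ℝ → I2 → I2 → S2 →L[ℂ] Completion D}
  {χ : V → ℂ} {s : ℝ} {L : Ix → V} {φ : Completion D →L[ℂ] ℂ}

/-- functionals that kill the families of low dimension -/
def Ns (Q : Theory D) (φ : Completion D →L[ℂ] ℂ) : Prop := ∀ (N : ℕ) (d : ℤ) (J : ℕ)
  (O : ℝ → (Fin N → Ix) → Sch →L[ℂ] Completion D), CovL Q N d J O → d ≤ 3 → Even (d - N) →
    ∀ τ μ f, φ (O τ μ f) = 0

theorem ns_dv (hT : ∀ τ, Stress0 Q (T τ)) (h : TP2 Q T e w) (hχ : Dc χ)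
    (h1 : ∀ᶠ u in 𝓝 (0 : V), χ u = 1) (P : Ns Q φ) (α β : ℝ) (n : Ix) (J : I2) {k : ℕ}
    (γ : Fin (k + 2) → Ix) (g : Sch) : φ (dvL (w α β) n J (Mo χ γ g)) = 0 := by
  obtain ⟨n1, hn⟩ := pol_diag h
  have := P (k + 2 + 3) (3 - k) n1 (fun τ => ct (w (τ + α) (τ + β)) χ (k + 2))
    ⟨fun τ μ s L y f g hs hL hg => by
      have := StrL.ct_cov hT h hχ h1 (τ + α) (τ + β) (k + 2) μ y f g hs hL hg
      rw [show (5 - (k + 2 : ℕ) : ℝ) = ((3 - k : ℤ) : ℝ) by push_cast; ring] at this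
      simpa only [add_right_comm τ _ (Real.log s)] using this,
    fun μ f => (IsPol.sum Finset.univ fun m _ => hn α β (m, μ 0) (μ 1, μ 2) _).congr fun τ => by
      rw [← pp_apply, ct, ContinuousLinearMap.comp_apply, dvL_eq, map_sum]⟩ (by omega)
    ⟨-k - 1, by push_cast; ring⟩ 0 (ix3 n J γ) g
  rwa [zero_add, zero_add] at this

/-- the divergence without the symmetric first jet -/
def dv0 (χ : V → ℂ) (u : I2 → I2 → S2 →L[ℂ] Completion D) (n : Ix) (J : I2) :
    S2 →L[ℂ] Completion D := dvL u n J - ∑ m, rho χ u (m, n) J ∘L dgn ∘L pD i1 m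

lemma dv0_apply (u : I2 → I2 → S2 →L[ℂ] Completion D) (n : Ix) (J : I2) (G : S2) :
    dv0 χ u n J G = dvL u n J G - ∑ m, rho χ u (m, n) J (dgn (pD i1 m G)) := by
  simp [dv0, ContinuousLinearMap.sum_apply]

variable (hT : ∀ τ, Stress0 Q (T τ)) (h : TP2 Q T e w) (hχ : Dc χ)
  (h1 : ∀ᶠ u in 𝓝 (0 : V), χ u = 1) (P : Ns Q φ)
include hT h hχ h1 P

theorem dv0_eq (a0 : ∀ α β α' β' n J (g : Sch), HasCompactSupport g →
      φ (dvL (w α β) n J (Mo χ ![] g)) = φ (dvL (w α' β') n J (Mo χ ![] g)))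
    (a1 : ∀ α β α' β' n t J (g : Sch), HasCompactSupport g →
      φ (dvL (w α β) n J (Mo χ ![t] g) - dvL (w α β) t J (Mo χ ![n] g)) =
        φ (dvL (w α' β') n J (Mo χ ![t] g) - dvL (w α' β') t J (Mo χ ![n] g)))
    (α β α' β' : ℝ) (n : Ix) (J : I2) (G : S2) :
    φ (dv0 χ (w α β) n J G) = φ (dv0 χ (w α' β') n J G) := by
  have o : ∀ α β, Off (dv0 χ (w α β) n J) := fun α β F hF => by
    simp only [dv0_apply, StrL.off hT h α β n J F hF, pD, (Nd.dD hF _).dgn, map_zero,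
      Finset.sum_const_zero, sub_zero]
  refine sub_eq_zero.1 (off_zero (Λ := φ ∘L dv0 χ (w α β) n J - φ ∘L dv0 χ (w α' β') n J)
    (fun F hF => by simp [o _ _ F hF]) hχ h1 (fun k γ g hg => ?_) G)
  simp only [ContinuousLinearMap.sub_apply, ContinuousLinearMap.comp_apply, dv0_apply, sub_eq_zero]
  rcases k with _ | _ | k
  · simp only [Subsingleton.elim γ ![], (nd_Mo hχ h1 _ g).dgn, map_zero, Finset.sum_const_zero,
      sub_zero, a0 α β α' β' n J g hg]
  · obtain ⟨t, rfl⟩ : ∃ t, γ = ![t] := ⟨γ 0, funext fun i => by fin_cases i; rfl⟩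
    have e : ∀ α β, dvL (w α β) n J (Mo χ ![t] g) -
        ∑ m, rho χ (w α β) (m, n) J (dgn (pD i1 m (Mo χ ![t] g))) =
        (2⁻¹ : ℂ) • (dvL (w α β) n J (Mo χ ![t] g) - dvL (w α β) t J (Mo χ ![n] g)) :=
      fun α β => by
        conv_lhs => enter [2, 2, m]; rw [Mo_cons hχ, p1_mul, map_add, dgn_mul, add_zero, map_smul,
          dgn_Mo hχ h1, map_smul]
        rw [sum_bas t fun m => rho χ (w α β) (m, n) J g, rho_apply]
        module
    rw [e, e, map_smul, map_smul, a1 α β α' β' n t J g hg]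
  · have e : ∀ m, dgn (pD i1 m (Mo χ γ g)) = 0 := fun m => by
      rw [← Fin.cons_self_tail γ, ← Fin.cons_self_tail (Fin.tail γ)]
      erw [Mo_cons hχ, Mo_cons hχ]
      rw [p1_mul, map_add, map_smul, dgn_mul, dgn_mul, smul_zero, add_zero]
    simp only [e, map_zero, Finset.sum_const_zero, sub_zero, ns_dv hT h hχ h1 P]

omit hT P in
/-- the double divergence -/
theorem rho_eq (a : ∀ α β α' β' n J G, φ (dv0 χ (w α β) n J G) = φ (dv0 χ (w α' β') n J G))
    (α β α' β' : ℝ) (I J : I2) (g : Sch) :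
    φ (rho χ (w α β) I J g) - φ (rho χ (w β α) J I g) =
      φ (rho χ (w α' β') I J g) - φ (rho χ (w β' α') J I g) := by
  refine sub_eq_zero.1 (braid (t := fun m n r => φ (rho χ (w α β) (m, n) (r, J.2) g) -
    φ (rho χ (w β α) (r, J.2) (m, n) g) - (φ (rho χ (w α' β') (m, n) (r, J.2) g) -
      φ (rho χ (w β' α') (r, J.2) (m, n) g))) (fun m n r => ?_) (fun p q n => ?_) I.1 I.2 J.1)
  · rw [← rho_s1 _ (m, n), ← rho_s1 (w α' β') (m, n), ← rho_s2 h _ _ _ (m, n),
      ← rho_s2 h β' _ _ (m, n)]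
    rfl
  set G := mul q (mul p (Mo χ ![] g))
  have c : ∀ m r, sw (pD i1 m (pD i2 r G)) = pD i1 r (pD i2 m (sw G)) := fun m r => by
    rw [← itw_sw2.pD, ← itw_sw1.pD]
    exact DFunLike.congr_fun (pD_comm i2 m r) _
  have d : ∀ m r, dgn (pD i1 m (pD i2 r G)) =
      -((bas p 1 m : ℂ) • (bas q 1 r : ℂ) • g + (bas q 1 m : ℂ) • (bas p 1 r : ℂ) • g) :=
    fun m r => by
      simp only [G, p2_mul, p1_mul, map_add, map_neg, map_smul, dgn_mul, dgn_Mo hχ h1, smul_zero,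
        add_zero]
      module
  have key : ∀ α β, ∑ r, φ (dv0 χ (w α β) n (r, J.2) (pD i2 r G)) -
      ∑ m, φ (dv0 χ (w β α) J.2 (m, n) (pD i2 m (sw G))) =
      φ (rho χ (w α β) (p, n) (q, J.2) g) - φ (rho χ (w β α) (q, J.2) (p, n) g) +
        (φ (rho χ (w α β) (q, n) (p, J.2) g) - φ (rho χ (w β α) (p, J.2) (q, n) g)) :=
    fun α β => by
      have b : ∀ (u : Ix → Ix → ℂ) (p q : Ix), ∑ r, ∑ m, (bas p 1 m : ℂ) • (bas q 1 r : ℂ) • u m r =
          u p q := fun u p q => by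
        simp only [smul_comm (bas p 1 _ : ℂ), ← Finset.smul_sum, sum_bas]
      have b' : ∀ (u : Ix → Ix → ℂ) (p q : Ix), ∑ m, ∑ r, (bas p 1 m : ℂ) • (bas q 1 r : ℂ) • u m r =
          u p q := fun u p q => Finset.sum_comm.trans (b u p q)
      have e : ∑ r, ∑ m, φ (w α β (m, n) (r, J.2) (pD i1 m (pD i2 r G))) =
          ∑ m, ∑ r, φ (w β α (r, J.2) (m, n) (sw (pD i1 m (pD i2 r G)))) := by
        simp only [← tp_sw h]
        exact Finset.sum_comm
      simp only [dv0_apply, dvL_eq, ← c, dgn_sw, d, map_sub, map_sum, map_neg, map_add, map_smul,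
        Finset.sum_sub_distrib, Finset.sum_neg_distrib, Finset.sum_add_distrib, e,
        b fun m r => φ (rho χ (w α β) (m, n) (r, J.2) g),
        b' fun m r => φ (rho χ (w β α) (r, J.2) (m, n) g)]
      ring
  rw [← sub_eq_zero.2 ((key α β).symm.trans ((congrArg₂ (· - ·)
    (Finset.sum_congr rfl fun r _ => a α β α' β' _ _ _)
    (Finset.sum_congr rfl fun r _ => a β α β' α' _ _ _)).trans (key α' β')))]
  ring

omit hT P in
/-- the divergence of the corrected products does not depend on the members -/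
theorem fix_dv (a : ∀ α β α' β' n J G, φ (dv0 χ (w α β) n J G) = φ (dv0 χ (w α' β') n J G))
    (α β α' β' : ℝ) (n : Ix) (J : I2) (G : S2) :
    φ (dvL (fix χ w α β) n J G) = φ (dvL (fix χ w α' β') n J G) := by
  have e : ∀ α β, φ (dvL (fix χ w α β) n J G) = φ (dv0 χ (w α β) n J G) + ∑ m, 2⁻¹ *
      (φ (rho χ (w α β) (m, n) J (dgn (pD i1 m G))) -
        φ (rho χ (w β α) J (m, n) (dgn (pD i1 m G)))) := fun α β => by
    simp only [dv0_apply, dvL_eq, fix_apply, map_sub, map_sum, map_smul, map_add, smul_eq_mul,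
      ← Finset.sum_sub_distrib, ← Finset.sum_add_distrib]
    exact Finset.sum_congr rfl fun m _ => by ring
  rw [e, e, a α β α' β']
  simp only [rho_eq h hχ h1 a α β α' β']

omit hT h hχ h1 P in
lemma sum5 {M : Type*} [AddCommMonoid M] (F : (Fin 5 → Ix) → M) :
    ∑ ν, F ν = ∑ K : I2, ∑ k, ∑ m, ∑ n, F ![K.1, K.2, k, m, n] := by
  simp only [Str.sum_cons, Fintype.sum_prod_type, Finset.univ_unique, Finset.sum_singleton]
  rfl

/-- `w(T, C)` -/
def wc (u : I2 → I2 → S2 →L[ℂ] Completion D) (I : I2) (κ : I3) : S2 →L[ℂ] Completion D :=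
  ∑ J, u I J ∘L aD i2 κ J

omit hT h hχ h1 P in
lemma wc_apply (u : I2 → I2 → S2 →L[ℂ] Completion D) (I : I2) (κ : I3) (F : S2) :
    wc u I κ F = ∑ J, u I J (aD i2 κ J F) := by simp [wc, ContinuousLinearMap.sum_apply]

omit hT hχ h1 P in
theorem wc_cov (hs : 0 < s) (hL : IsLor L) (α β : ℝ) (a : V) (μ : Fin 5 → Ix) (F : S2) : ∃ κ : ℂ,
    wc (w (α + Real.log s) (β + Real.log s)) (μ 0, μ 1) (μ 2, μ 3, μ 4) F =
      ∑ ν : Fin 5 → Ix, ((s ^ (-1 : ℝ) * ∏ i, L (ν i) (μ i) : ℝ) : ℂ) •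
        Ug Q s L a (wc (w α β) (ν 0, ν 1) (ν 2, ν 3, ν 4) (sim2 hs hL a F)) + κ • om Q := by
  choose κ hκ using fun J => h.cov α β s L a (μ 0, μ 1) J (aD i2 (μ 2, μ 3, μ 4) J F) _ hs hL
    (sim2_apply hs hL a _)
  refine ⟨∑ J, κ J, ?_⟩
  simp only [wc_apply, hκ, Finset.sum_add_distrib, Finset.sum_smul, add_left_inj, sum5,
    ← Ug_apply Q hs hL]
  refine Finset.sum_comm.trans (Finset.sum_congr rfl fun K _ => Finset.sum_comm.trans ?_)
  simp only [mul_smul, ← Finset.smul_sum, ← map_smul (Ug Q s L a), ← map_smul (w α β K _),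
    ← map_sum, aD_cov]
  simp only [map_sum, map_smul, Finset.smul_sum, smul_smul]
  refine Finset.sum_comm.trans (Finset.sum_congr rfl fun k _ => Finset.sum_comm.trans
    (Finset.sum_congr rfl fun m _ => Finset.sum_comm.trans (Finset.sum_congr rfl fun n _ =>
      Finset.sum_congr rfl fun M _ => ?_)))
  congr 1
  simp only [L2, Fin.prod_univ_five, Real.rpow_neg_one]
  simp
  ring

variable (hX : ∀ β β' κ (g : Sch) v, ∑ J : I2, T β J.1 J.2 (ev (aD i0 κ J g)) v =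
  ∑ J : I2, T β' J.1 J.2 (ev (aD i0 κ J g)) v)
include hX

omit hχ h1 P in
theorem wc_off (α β β' : ℝ) (I : I2) (κ : I3) : Off (wc (w α β) I κ - wc (w α β') I κ) := by
  refine fun G hG => ST.ker2_local _ G fun q hq => ?_
  obtain ⟨δ, d0, d⟩ := late_near (x := q.1) (y := q.2) fun a => hG q.1 (by
    rwa [show (q.1, q.1) = q from Prod.ext rfl a])
  refine ⟨δ, d0, fun f g _ _ s1 s2 => ?_⟩
  have s3 := fun J => (tsupport_aD i0 κ J g).trans s2
  have t : ∀ J, aD i2 κ J (ST.tens f g) = ST.tens f (aD i0 κ J g) := fun J =>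
    (itw_tensR (e' := i0) (fun _ => rfl) f).aD κ J g
  have l := fun v : I2 → D => fld_lin (fld0 (hT α) I.1 I.2) (f := ev f) ⟨f, rfl⟩ Finset.univ v
  simp only [ContinuousLinearMap.sub_apply, sub_eq_zero, wc_apply, t]
  rcases d with d | d
  · simp only [fun β J => h.fac α β I J f (aD i0 κ J g) (ST.tens _ _) (fun _ _ => rfl)
      fun a ha b hb => d a (s1 ha) b (s3 J hb)]
    cases e <;> simp only [Bool.false_eq_true, if_false, if_true, ← coe_sum, ← l, hX β β']
  · simp only [fun β J => (tp_sw h α β I J (ST.tens f (aD i0 κ J g))).trans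
      (h.fac β α J I _ f _ (fun x y => mul_comm _ _) fun a ha b hb => d a (s3 J ha) b (s1 hb))]
    cases e <;> simp only [Bool.false_eq_true, if_false, if_true, ← coe_sum, ← l, hX β β']

theorem wc_eq (a : ∀ α β α' β' n J G, φ (dvL (w α β) n J G) = φ (dvL (w α' β') n J G))
    (α β β' : ℝ) (I : I2) (κ : I3) (F : S2) : φ (wc (w α β) I κ F) = φ (wc (w α β') I κ F) := by
  refine sub_eq_zero.1 (sym_zero (Λ := fun I => φ ∘L (wc (w α β) I κ - wc (w α β') I κ))
    (fun I F hF => by rw [ContinuousLinearMap.comp_apply, wc_off hT h hX _ _ _ _ _ F hF, map_zero])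
    hχ h1 (fun m n => by simp only [wc, h.ind _ _ (m, n), Prod.swap]) (fun n G => ?_)
    (fun I k γ g => ?_) I F |> (map_sub φ _ _).symm.trans)
  · have e : ∀ β, ∑ m, φ (wc (w α β) (m, n) κ (pD i1 m G)) =
        ∑ J, φ (dvL (w α β) n J (aD i2 κ J G)) := fun β => by
      simp only [wc_apply, dvL_eq, map_sum, pD, (itw_dD i2 _).aD]
      exact Finset.sum_comm
    simp only [ContinuousLinearMap.comp_apply, ContinuousLinearMap.sub_apply, map_sub,
      Finset.sum_sub_distrib, e, a α β α β', sub_self]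
  obtain ⟨n1, hn⟩ := pol_diag h
  have p : ∀ β I κ F, IsPol n1 fun τ => pp Q (wc (w (τ + α) (τ + β)) I κ F) := fun β I κ F =>
    (IsPol.sum Finset.univ fun J _ => hn α β I J _).congr fun τ => by rw [wc_apply, map_sum]
  have c : Cv2 Q 5 (-1) n1 fun τ μ => wc (w (τ + α) (τ + β)) (μ 0, μ 1) (μ 2, μ 3, μ 4) -
      wc (w (τ + α) (τ + β')) (μ 0, μ 1) (μ 2, μ 3, μ 4) :=
    ⟨fun τ μ => wc_off hT h hX _ _ _ _ _, fun τ μ s L y hs hL F => by
      obtain ⟨κ1, e1⟩ := wc_cov h hs hL (τ + α) (τ + β) y μ F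
      obtain ⟨κ2, e2⟩ := wc_cov h hs hL (τ + α) (τ + β') y μ F
      refine ⟨κ1 - κ2, ?_⟩
      simp only [add_right_comm τ (Real.log s), ContinuousLinearMap.sub_apply, e1, e2, map_sub,
        smul_sub, Finset.sum_sub_distrib, sub_smul]
      abel, fun μ F => ((p β _ _ F).sub (p β' _ _ F)).congr fun τ => by
        rw [ContinuousLinearMap.sub_apply, map_sub]⟩
  have := P _ (3 - k) n1 _ (c.jet hχ h1 (k + 2) (by push_cast; ring)) (by omega)
    ⟨-k - 2, by push_cast; ring⟩ 0 (Fin.append ![I.1, I.2, κ.1, κ.2.1, κ.2.2] γ) g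
  simp only [Fin.append_left, Fin.append_right, zero_add] at this
  exact this

theorem wcc_eq (a : ∀ α β α' β' n J G, φ (dvL (w α β) n J G) = φ (dvL (w α' β') n J G))
    (α β : ℝ) (κ κ' : I3) (N : S2) : φ (wcc (w α α) κ κ' N) = φ (wcc (w β β) κ κ' N) := by
  have c : ∀ I J N, aD i1 κ I (aD i2 κ' J N) = aD i2 κ' J (aD i1 κ I N) := fun I J N => by
    rw [aD_sy i2]
    exact (itw_sy i1 i2 _).aD κ I N
  have e1 : ∀ α β, φ (wcc (w α β) κ κ' N) = ∑ I, φ (wc (w α β) I κ' (aD i1 κ I N)) := fun α β => by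
    simp [wcc, wc_apply, ContinuousLinearMap.sum_apply, c]
  have e2 : ∀ α β, φ (wcc (w α β) κ κ' N) = ∑ J, φ (wc (w β α) J κ (sw (aD i2 κ' J N))) :=
    fun α β => by
      simp only [wc_apply, itw_sw2.aD, ← tp_sw h, map_sum]
      rw [Finset.sum_comm]
      simp [wcc, ContinuousLinearMap.sum_apply]
  rw [e1, Finset.sum_congr rfl fun I _ => wc_eq hT h hχ h1 P hX a α α β I _ _, ← e1, e2,
    Finset.sum_congr rfl fun I _ => wc_eq hT h hχ h1 P hX a β α β I _ _, ← e2]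

end Vale.Agent.P352L.Clf
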